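import Vale.Agent.P226.Statement
import Vale.Agent.P226.AllK
import Vale.Agent.P226.FinalThm
import Vale.Agent.P226.Propeller

open MeasureTheory

namespace Vale.Agent.Results.P226.GaussianPropeller

open Vale.Agent.P226S

/-- The Gaussian propeller conjecture (Khot-Naor), in all dimensions and for every number of
cells: every measurable partition of `ℝ^d` into `k` cells satisfies `F ≤ 9/(8π)`, and for `d ≥ 2`,
`k ≥ 3` the value `9/(8π)` is attained, so that `M(d,k) = 9/(8π)`. -/
theorem result :
    (∀ (d k : ℕ) (A : Fin k → Set (EuclideanSpace ℝ (Fin d))), IsPartition A →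
      functional A ≤ 9 / (8 * Real.pi)) ∧
    (∀ d k : ℕ, 2 ≤ d → 3 ≤ k →
      (∃ A : Fin k → Set (EuclideanSpace ℝ (Fin d)), IsPartition A ∧
        functional A = 9 / (8 * Real.pi)) ∧
      M d k = 9 / (8 * Real.pi)) :=
  _root_.P226.final_thm _root_.P226.PK_all fun _ _ hd hk => _root_.P226.propeller_attains hd hk

end Vale.Agent.Results.P226.GaussianPropeller
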