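import Vale.Agent.P226.Statement
import Vale.Agent.P226.AllK
import Vale.Agent.P226.FinalThm
import Vale.Agent.P226.Propeller

/-!
P226: the Gaussian propeller conjecture, stated with the standard Gaussian measure of Mathlib and
no further definitions.
-/

open MeasureTheory ProbabilityTheory Set

namespace Vale.Agent.Results.P226.StdGaussian

open Vale.Agent.P226S

theorem null_iff {d : ℕ} (S : Set (EuclideanSpace ℝ (Fin d)))
    (h : stdGaussian (EuclideanSpace ℝ (Fin d)) S = 0) : volume S = 0 := by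
  have h1 : (volume : Measure (EuclideanSpace ℝ (Fin d))) ≪
      stdGaussian (EuclideanSpace ℝ (Fin d)) := by
    rw [_root_.P226.stdGaussian_eq]
    refine withDensity_absolutelyContinuous' ?_ ?_
    · have : Measurable fun x : EuclideanSpace ℝ (Fin d) =>
          ENNReal.ofReal (_root_.P226.gdens x) :=
        ENNReal.measurable_ofReal.comp _root_.P226.continuous_gdens.measurable
      exact this.aemeasurable
    · refine ae_of_all _ fun x => ?_
      exact (ENNReal.ofReal_pos.mpr (_root_.P226.gdens_pos x)).ne'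
  exact h1 h

theorem fin_le (d k : ℕ) (A : Fin k → Set (EuclideanSpace ℝ (Fin d)))
    (hA : ∀ i, MeasurableSet (A i))
    (hd : ∀ i j, i ≠ j → stdGaussian (EuclideanSpace ℝ (Fin d)) (A i ∩ A j) = 0) :
    ∑ i, ‖∫ x in A i, x ∂(stdGaussian (EuclideanSpace ℝ (Fin d)))‖ ^ 2 ≤
      9 / (8 * Real.pi) := by
  have h := _root_.P226.family_le _root_.P226.PK_all A hA fun i j hij => null_iff _ (hd i j hij)
  unfold functional at h
  simp only [_root_.P226.gaussMoment_eq _ (hA _)] at h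
  exact h

/-- The Gaussian propeller conjecture. -/
theorem result :
    (∀ (d k : ℕ) (A : Fin k → Set (EuclideanSpace ℝ (Fin d))), (∀ i, MeasurableSet (A i)) →
      (∀ i j, i ≠ j → stdGaussian (EuclideanSpace ℝ (Fin d)) (A i ∩ A j) = 0) →
      ∑ i, ‖∫ x in A i, x ∂(stdGaussian (EuclideanSpace ℝ (Fin d)))‖ ^ 2 ≤
        9 / (8 * Real.pi)) ∧
    (∀ (d : ℕ) (A : ℕ → Set (EuclideanSpace ℝ (Fin d))), (∀ i, MeasurableSet (A i)) →
      (∀ i j, i ≠ j → stdGaussian (EuclideanSpace ℝ (Fin d)) (A i ∩ A j) = 0) →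
      Summable (fun i => ‖∫ x in A i, x ∂(stdGaussian (EuclideanSpace ℝ (Fin d)))‖ ^ 2) ∧
      ∑' i, ‖∫ x in A i, x ∂(stdGaussian (EuclideanSpace ℝ (Fin d)))‖ ^ 2 ≤
        9 / (8 * Real.pi)) ∧
    (∀ d k : ℕ, 2 ≤ d → 3 ≤ k →
      IsGreatest {F : ℝ | ∃ A : Fin k → Set (EuclideanSpace ℝ (Fin d)),
        (∀ i, MeasurableSet (A i)) ∧ (∀ i j, i ≠ j → Disjoint (A i) (A j)) ∧
        (⋃ i, A i = univ) ∧
        F = ∑ i, ‖∫ x in A i, x ∂(stdGaussian (EuclideanSpace ℝ (Fin d)))‖ ^ 2}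
        (9 / (8 * Real.pi))) := by
  refine ⟨fin_le, fun d A hA hd => ?_, fun d k hd hk => ⟨?_, ?_⟩⟩
  · have h0 : ∀ i, 0 ≤ ‖∫ x in A i, x ∂(stdGaussian (EuclideanSpace ℝ (Fin d)))‖ ^ 2 :=
      fun i => sq_nonneg _
    have h1 : ∀ k, ∑ i ∈ Finset.range k,
        ‖∫ x in A i, x ∂(stdGaussian (EuclideanSpace ℝ (Fin d)))‖ ^ 2 ≤ 9 / (8 * Real.pi) := by
      intro k
      rw [Finset.sum_range]
      exact fin_le d k (fun i => A i) (fun i => hA i)
        fun i j hij => hd i j fun h => hij (Fin.ext h)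
    exact ⟨summable_of_sum_range_le h0 h1, Real.tsum_le_of_sum_range_le h0 h1⟩
  · obtain ⟨A, hm, hdis, hU, hs⟩ := _root_.P226.propeller_attains hd hk
    exact ⟨A, hm, fun i j hij => hdis hij, hU, hs.symm⟩
  · rintro F ⟨A, hm, hdis, -, rfl⟩
    refine fin_le d k A hm fun i j hij => ?_
    rw [(hdis i j hij).inter_eq, measure_empty]

end Vale.Agent.Results.P226.StdGaussian
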